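import Vale.Agent.P223W69.Defs

/-! Conformal metrics and gradients. -/

namespace Vale.Agent.N223

open scoped Manifold ContDiff
open Vale.Agent.P223W69

variable {V : Type} [NormedAddCommGroup V] [NormedSpace ℝ V] {M : Type} [TopologicalSpace M]
  [ChartedSpace V M] [IsManifold 𝓘(ℝ, V) ∞ M]

/-- The metric `g'` is conformal to `g`: `g' = f g` for a function `f`. -/
def Conf (g g' : RM V M) : Prop :=
  ∃ f : M → ℝ, ∀ p v w, inn V g' p v w = f p * inn V g p v w

/-- `u` is a smooth function and `X` is its gradient: `g(X, v) = du(v)` for all `v`. -/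
def Grad (g : RM V M) (u : M → ℝ) (X : ∀ p : M, TangentSpace 𝓘(ℝ, V) p) : Prop :=
  ContMDiff 𝓘(ℝ, V) 𝓘(ℝ) ∞ u ∧ ∀ p v, inn V g p (X p) v = mvfderiv 𝓘(ℝ, V) u p v

end Vale.Agent.N223
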