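import Vale.Agent.N223.Yam
import Vale.Agent.N223.Defs
import Vale.Agent.P223W69.Man
import Vale.Agent.P223Y.Cv
import Vale.Agent.P210B.Mk

/-!
# N223: from the Riemannian metrics of Mathlib to `Mf0`
-/

open MeasureTheory Filter Topology Set WithLp IsManifold
open scoped ContDiff Manifold
open Vale.Agent.P366M Vale.Agent.P223Y
open Vale.Agent.P223W69 (RM gm co D SC sc_co inn Scal IsVol EE rel_gm met_gm bil_gm D_inj)
open Vale.Agent.P366Z (bb gam)

noncomputable section

namespace Vale.Agent.N223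

variable {n : ℕ} {M : Type}

section top

variable [TopologicalSpace M] [ChartedSpace (EE n) M] [IsManifold (𝓡 n) ∞ M]

theorem exists_ch (x : M) : ∃ e : Ch n M, e ∈ maximalAtlas (𝓡 n) ∞ M ∧ e.target = univ ∧
    x ∈ e.source := by
  let A : P366N.Atl M (EE n) := ⟨atlas _ M, fun p => ⟨_, chart_mem_atlas _ p, mem_chart_source _ p⟩,
    fun c hc c' hc' => P210B.cp_of_max (subset_maximalAtlas hc) (subset_maximalAtlas hc')⟩
  obtain ⟨e, h1, h2, h3⟩ := A.pref x
  exact ⟨e, P210B.mem_max h1, h2, h3⟩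

/-- the structure `Mf0` -/
@[reducible] def mk0 [CompactSpace M] [T2Space M] [ne : Nonempty M] [ms : MeasurableSpace M]
    [bor : BorelSpace M] : Mf0 n M where
  toMetricSpace := @TopologicalSpace.metrizableSpaceMetric M _ (Manifold.metrizableSpace (𝓡 n) M)
  toMeasurableSpace := ms
  atlas := {e | e ∈ maximalAtlas (𝓡 n) ∞ M ∧ e.target = univ}
  chartAt x := (exists_ch x).choose
  mem_chart_source x := (exists_ch x).choose_spec.2.2
  chart_mem_atlas x := ⟨(exists_ch x).choose_spec.1, (exists_ch x).choose_spec.2.1⟩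
  bor := bor
  sc := ChartedSpace.secondCountable_of_sigmaCompact (EE n) M
  ne := ne
  tgt _ he := he.2
  trans _ he _ he' y h := P210B.cp_of_max he.1 he'.1 y (he.2 ▸ mem_univ y) h

/-- the conformal metric `w g` -/
def cmul (g : RM (EE n) M) (w : M → ℝ) (hw : ContMDiff (𝓡 n) 𝓘(ℝ) ∞ w) (w0 : ∀ p, 0 < w p) :
    RM (EE n) M where
  inner p := w p • g.inner p
  symm b v u := by simp [g.symm b v u]
  pos b v hv := by simpa using mul_pos (w0 b) (g.pos b v hv)
  isVonNBounded b := by
    obtain ⟨r, hr, hr2⟩ : ∃ r : ℝ, 0 < r ∧ r * r = w b := ⟨√(w b), Real.sqrt_pos.2 (w0 b),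
      Real.mul_self_sqrt (w0 b).le⟩
    refine ((g.isVonNBounded b).image
      (r⁻¹ • ContinuousLinearMap.id ℝ (TangentSpace (𝓡 n) b))).subset ?_
    intro v hv
    refine ⟨r • v, ?_, ?_⟩
    · have hv' : w b * g.inner b v v < 1 := hv
      change g.inner b (r • v) (r • v) < 1
      rw [map_smul, map_smul]
      change r * (r * g.inner b v v) < 1
      rwa [← mul_assoc, hr2]
    · simp [smul_smul, hr.ne']
  contMDiff := hw.smul_section g.contMDiff

theorem conf_cmul (g : RM (EE n) M) {w : M → ℝ} (hw : ContMDiff (𝓡 n) 𝓘(ℝ) ∞ w)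
    (w0 : ∀ p, 0 < w p) (p : M) (v u) :
    inn (EE n) (cmul g w hw w0) p v u = w p * inn (EE n) g p v u := rfl

theorem rm_ext {g g' : RM (EE n) M} (h : ∀ p v w, inn (EE n) g p v w = inn (EE n) g' p v w) :
    g = g' := by
  have e : g.inner = g'.inner := funext fun p => by
    ext v w
    exact h p v w
  cases g
  cases g'
  congr

theorem bil_inv {A : Matrix (Fin n) (Fin n) ℝ} (hA : A.PosDef) (a w : Fin n → ℝ) :
    P223.J.bil A (fun i => ∑ j, A⁻¹ i j * a j) w = ∑ j, w j * a j := by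
  have h : A.mulVec (A⁻¹.mulVec a) = a := by
    rw [Matrix.mulVec_mulVec, Matrix.mul_nonsing_inv _ hA.det_pos.ne'.isUnit, Matrix.one_mulVec]
  unfold P223.J.bil
  rw [Finset.sum_comm]
  refine Finset.sum_congr rfl fun j _ => ?_
  conv_rhs => rw [← h]
  simp only [Matrix.mulVec, dotProduct, Finset.mul_sum]
  refine Finset.sum_congr rfl fun i _ => ?_
  rw [P210B.sy_of hA i j, Finset.sum_mul, Finset.sum_mul]
  exact Finset.sum_congr rfl fun k _ => by ring

end top

variable [Mf0 n M] [cs : ChartedSpace (EE n) M] [IsManifold (𝓡 n) ∞ M]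

/-- the metric in the preferred charts -/
def fld (g : RM (EE n) M) : Fld n M := fun x => gm g (ch x) (pt x).ofLp

variable (hA : ∀ x : M, ch x ∈ maximalAtlas (𝓡 n) ∞ M) (g : RM (EE n) M)
include hA

theorem rep_fld (x : M) : rep (ch x) (fld g) = fun y => gm g (ch x) y.ofLp := by
  funext y k l
  have he := ch_mem x
  set p := (ch x).symm y with hp
  obtain ⟨h1, h2⟩ := rel_gm g (sc_co (hA x)) (sc_co (hA p)) p (symm_mem he y) (mem_ch p)
  have e : co (ch x) p = y.ofLp := congrArg ofLp (right_inv he y)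
  rw [e] at h1 h2
  have h3 := h2 (Pi.single k 1) (Pi.single l 1)
  rw [P223.X.RicU.bil_single] at h3
  have e2 : tm (ch x) (ch p) = fun z => toLp 2 (P223.J.cm (co (ch x)) (co (ch p)) z.ofLp) := rfl
  unfold rep J
  rw [← hp, e2]
  simp only [jac_of (h1.differentiableAt (by simp))]
  exact h3.symm

theorem sm_gm (x : M) (i j : Fin n) : ContDiff ℝ ∞ fun y => gm g (ch x) y i j :=
  contDiffOn_univ.1 (((met_gm g (sc_co (hA x))).smooth i j).mono
    fun y _ => mem_tgt (ch_mem x) (toLp 2 y))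

theorem pos_gm (x : M) (y : Fn n) : (gm g (ch x) y).PosDef :=
  (met_gm g (sc_co (hA x))).posDef y (mem_tgt (ch_mem x) (toLp 2 y))

theorem met_fld : Met (fld g) where
  sm := smT_of fun p => ⟨_, ch_mem p, mem_ch p, fun i j => by
    rw [rep_fld hA]
    exact ((sm_gm hA g p i j).comp cd_of).contDiffAt⟩
  sy _ := P210B.sy_of (pos_gm hA g _ _)
  pos _ := pos_gm hA g _ _

theorem scal_fld (p : M) : scal (fld g) p = Scal g p := by
  rw [scal, rep_fld hA, scal_of (sm_gm hA g p) (pos_gm hA g p),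
    ← P223W69.scal_eq g (hA p) (mem_ch p)]
  rfl

theorem vol_fld {ν : Measure M} (hν : IsVol g ν) : vol (fld g) = ν := by
  ext s hs
  rw [← inter_univ s, ← union_pc, inter_iUnion]
  have d : Pairwise (Function.onFun Disjoint fun k => s ∩ pc M k) := fun _ _ h =>
    (disjoint_disjointed _ h).mono inter_subset_right inter_subset_right
  rw [measure_iUnion d fun k => hs.inter (meas_pc k), measure_iUnion d fun k => hs.inter (meas_pc k)]
  refine tsum_congr fun k => ?_
  have h1 : s ∩ pc M k ⊆ (ch (cv M k)).source := fun p hp => pc_sub k hp.2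
  have hm := hs.inter (meas_pc (M := M) k)
  generalize s ∩ pc M k = t at h1 hm
  generalize cv M k = x at h1
  have he := ch_mem x
  have m0 : MeasurableSet ((ch x).symm ⁻¹' t) := (measEmb_symm he).measurable hm
  have m1 : MeasurableSet ((co (ch x)).symm ⁻¹' t) := (cd_to (m := 0)).continuous.measurable m0
  have h2 := hν _ (hA x) _ (fun y _ => mem_tgt he (toLp 2 y)) m1
  rw [image_preimage_eq_of_subset fun p hp => ⟨_, (co (ch x)).left_inv (h1 hp)⟩] at h2
  have h3 := vol_image (met_fld hA g) he m0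
  rw [image_preimage_eq_of_subset (by rwa [range_symm he]), rep_fld hA] at h3
  rw [h2, h3, ← (PiLp.volume_preserving_ofLp (Fin n)).setLIntegral_comp_preimage_emb me_of]
  rfl

omit [IsManifold (𝓡 n) ∞ M] in
theorem smooth_iff {u : M → ℝ} : Smooth u ↔ ContMDiff (𝓡 n) 𝓘(ℝ) ∞ u := by
  refine ⟨fun h p => ?_, fun h => cd_of_cAt le_rfl fun x => ?_⟩
  · have h1 := (contMDiffOn_of_mem_maximalAtlas (hA p)).contMDiffAt
      ((ch p).open_source.mem_nhds (mem_ch p))
    refine ((h _ (ch_mem p)).contMDiff.contMDiffAt.comp p h1).congr_of_eventuallyEq ?_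
    filter_upwards [(ch p).open_source.mem_nhds (mem_ch p)] with q hq
    exact (congrArg u ((ch p).left_inv hq)).symm
  · have h1 := contMDiffOn_symm_of_mem_maximalAtlas (hA x)
    rw [(ch_mem x).1, contMDiffOn_univ] at h1
    exact (h.comp h1).contDiff.contDiffAt

omit hA in
theorem gm_conf {g g' : RM (EE n) M} {f : M → ℝ}
    (h : ∀ p v w, inn (EE n) g' p v w = f p * inn (EE n) g p v w) (x : M) (y : EE n) (i j : Fin n) :
    gm g' (ch x) y.ofLp i j = f ((ch x).symm y) * gm g (ch x) y.ofLp i j := h _ _ _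

/-- a conformal metric, in the normal form `U ^ (4 / (n - 2)) g` -/
theorem conf_cf (hn : 3 ≤ n) {g g' : RM (EE n) M} {f : M → ℝ}
    (h : ∀ p v w, inn (EE n) g' p v w = f p * inn (EE n) g p v w) :
    ∃ U, Smooth U ∧ (∀ x, 0 < U x) ∧ (∀ x, U x ^ (2 * bb n) = f x) ∧ fld g' = cf U (fld g) := by
  have b0 : 0 < 2 * bb n := by have := bb_pos hn; positivity
  let i : Fin n := ⟨0, by omega⟩
  have e : ∀ x : M, loc (ch x) f = fun y => gm g' (ch x) y.ofLp i i / gm g (ch x) y.ofLp i i :=
    fun x => funext fun y => by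
      rw [gm_conf h, mul_div_cancel_right₀ _ ((pos_gm hA g x _).diag_pos (i := i)).ne']
      rfl
  have f0 : ∀ x, 0 < f x := fun x => by
    rw [← loc_pt f x, e]
    exact div_pos (pos_gm hA g' x _).diag_pos (pos_gm hA g x _).diag_pos
  have sf : Smooth f := cd_of_cAt le_rfl fun x => by
    rw [CAt, e]
    exact (((sm_gm hA g' x i i).comp cd_of).div ((sm_gm hA g x i i).comp cd_of)
      fun y => (pos_gm hA g x _).diag_pos.ne').contDiffAt
  have k : ∀ x, (f x ^ (2 * bb n)⁻¹) ^ (2 * bb n) = f x := fun x =>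
    Real.rpow_inv_rpow (f0 x).le b0.ne'
  refine ⟨_, sf.rpow f0 (2 * bb n)⁻¹, fun x => Real.rpow_pos_of_pos (f0 x) _, k, ?_⟩
  funext x a b
  rw [cf, k, fld, gm_conf h, symm_pt]
  rfl

theorem exists_conf {U : M → ℝ} (sU : Smooth U) (U0 : ∀ x, 0 < U x) :
    ∃ g', Conf g g' ∧ fld g' = cf U (fld g) := by
  have h := conf_cmul g ((smooth_iff hA).1 (sU.rpow U0 (2 * bb n)))
    fun x => Real.rpow_pos_of_pos (U0 x) _
  refine ⟨_, ⟨_, h⟩, ?_⟩
  funext x a b
  rw [cf, fld, gm_conf h, symm_pt]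
  rfl

theorem exists_grad {u : M → ℝ} (su : Smooth u) :
    ∃ X, Grad g u X ∧ ∀ p, inn (EE n) g p (X p) (X p) = ip (fld g) u u p := by
  have hu := (smooth_iff hA).1 su
  have key : ∀ p (w : Fn n), P223W69.ip g p (D (co (ch p)) (pt p).ofLp fun i => gr (fld g) u i p)
      (D (co (ch p)) (pt p).ofLp w) = ∑ j, w j * pd j u p := fun p w => by
    have h := bil_gm g (ch p) (pt p).ofLp (fun i => gr (fld g) u i p) w
    rw [show (co (ch p)).symm (pt p).ofLp = p from symm_pt p] at h
    rw [← h]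
    exact bil_inv (pos_gm hA g p _) _ w
  refine ⟨fun p => D (co (ch p)) (pt p).ofLp fun i => gr (fld g) u i p, ⟨hu, fun p v => ?_⟩,
    fun p => (key p _).trans ?_⟩
  · have hx : (pt p).ofLp ∈ (co (ch p)).target := mem_tgt (ch_mem p) _
    have hs := sc_co (hA p)
    obtain ⟨w, rfl⟩ : ∃ w, D (co (ch p)) (pt p).ofLp w = v :=
      (LinearMap.injective_iff_surjective_of_finrank_eq_finrank
        (f := (D (co (ch p)) (pt p).ofLp : Fn n →ₗ[ℝ] EE n)) (by simp)).1
        ((injective_iff_map_eq_zero _).2 fun a ha => D_inj hs hx ha) v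
    refine (key p w).trans ?_
    have h1 := mfderiv_comp_apply_of_eq (pt p).ofLp ((hu p).mdifferentiableAt (by simp))
      ((hs.symm_at hx).mdifferentiableAt (by simp)) (symm_pt p) w
    rw [mfderiv_eq_fderiv] at h1
    have h2 : DifferentiableAt ℝ (u ∘ (co (ch p)).symm) (pt p).ofLp :=
      (((su _ (ch_mem p)).comp cd_to).differentiable (by simp)) _
    refine Eq.trans ?_ h1
    conv_rhs => rw [pi_eq_sum_univ' w]
    refine Eq.trans ?_ (map_sum (fderiv ℝ (u ∘ (co (ch p)).symm) (pt p).ofLp) _ _).symm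
    refine Finset.sum_congr rfl fun j _ => ?_
    rw [map_smul, smul_eq_mul]
    exact congrArg _ (pd_of h2 j)
  · simp only [ip, gr, Finset.sum_mul]
    exact Finset.sum_congr rfl fun i _ => Finset.sum_congr rfl fun j _ => by ring

end Vale.Agent.N223
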