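import Vale.Agent.N223.Main
import Vale.Agent.P223I.Fin
import Vale.Agent.P223W69.Fin
import Vale.Agent.P223W25.Cls
import Vale.Agent.P223X38.Scal

/-! N223: the statement with the scalar curvature of the Levi-Civita connection. -/

namespace Vale.Agent.N223

open scoped Manifold ContDiff
open MeasureTheory Vale.Agent.P223.J Vale.Agent.P223W69
open Vale.Agent.P244I (IsRiem IsScal)

theorem isScal_iff {n : ℕ} {M : Type} [TopologicalSpace M] [T2Space M] [ChartedSpace (EE n) M]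
    [IsManifold (𝓡 n) ∞ M] (g : RM (EE n) M) (S : M → ℝ) : IsScal g S ↔ ∀ p, Scal g p = S p := by
  refine ⟨fun h p => (P223X38.scal_pt h p).symm, fun h => ?_⟩
  obtain ⟨S', h', -⟩ := P244I.exu_scal g
  rwa [show S = S' from funext fun p => (h p).symm.trans (P223X38.scal_pt h' p).symm]

theorem final (n : ℕ) (hn : 3 ≤ n) : ∃ a > (0 : ℝ), ∀ (M : Type) [TopologicalSpace M]
    [CompactSpace M] [T2Space M] [ConnectedSpace M] [ChartedSpace (EE n) M]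
    [IsManifold (𝓡 n) ∞ M] [MeasurableSpace M] [BorelSpace M] (o : Ori (EE n) n M), IsOri o →
    ∃ z₀ : Simp (n + 1) M →₀ ℝ, IsFundM o z₀ ∧ (∀ z, IsFundM o z ↔ Homol z z₀) ∧
      ∀ g : RM (EE n) M, (∃! S, IsScal g S) ∧ (∃! μ : Measure M, IsVol g μ) ∧
      ∀ (S : M → ℝ) (μ : Measure M), IsScal g S → IsVol g μ →
        ENNReal.ofReal a * nrm z₀ ≤ ∫⁻ p, ENNReal.ofReal (max 0 (-S p) ^ ((n : ℝ) / 2)) ∂μ ∧
        (∀ κ ≥ (0 : ℝ), (∀ p, -κ ^ 2 ≤ S p) →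
          ENNReal.ofReal a * nrm z₀ ≤ ENNReal.ofReal (κ ^ n) * μ Set.univ) ∧
        (∀ h : M → ℝ, Integrable h μ → (∀ u X, Grad g u X →
            0 ≤ ∫ p, (4 * (n - 1) / (n - 2) * inn (EE n) g p (X p) (X p) + (S p + h p) * u p ^ 2)
              ∂μ) →
          ENNReal.ofReal a * nrm z₀ ≤ ∫⁻ p, ENNReal.ofReal (max 0 (h p) ^ ((n : ℝ) / 2)) ∂μ) ∧
        (nrm z₀ ≠ 0 → ∃! g₁, Conf g g₁ ∧ IsScal g₁ fun _ => -1) ∧
        ∀ (g₁ : RM (EE n) M) (μ₁ : Measure M), Conf g g₁ → (IsScal g₁ fun _ => -1) → IsVol g₁ μ₁ →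
          ENNReal.ofReal a * nrm z₀ ≤ μ₁ Set.univ ∧
          μ₁ Set.univ ≤ ∫⁻ p, ENNReal.ofReal (max 0 (-S p) ^ ((n : ℝ) / 2)) ∂μ ∧
          -(μ₁.real Set.univ ^ (2 / (n : ℝ)) * μ.real Set.univ ^ (1 - 2 / (n : ℝ))) ≤
            ∫ p, S p ∂μ := by
  obtain ⟨a, a0, h⟩ := fin (fun _ _ _ _ _ hc => P223W25.fund_class (by omega) hc) (P223I.q1 hn)
  refine ⟨a, a0, fun M _ _ _ _ _ _ _ _ o ho => ?_⟩
  obtain ⟨z₀, -, h2, h3, h4⟩ := h M o ho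
  refine ⟨z₀, h2, h3, fun g => ⟨P244I.exu_scal g, (h4 g).2.1, fun S μ hS hμ => ?_⟩⟩
  obtain rfl : Scal g = S := funext ((isScal_iff g S).1 hS)
  obtain ⟨k1, k2, k3⟩ := main (fun g => (h4 g).2.2) hn g μ hμ
  simp only [isScal_iff]
  exact ⟨(h4 g).2.2 μ hμ, fun κ hκ hS => ((h4 g).2.2 μ hμ).trans (lint_le μ hκ hS), k1,
    fun h0 => k2 (mul_ne_zero (ENNReal.ofReal_pos.2 a0).ne' h0), k3⟩

end Vale.Agent.N223
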