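import Vale.Agent.N223.Bridge

/-!
# N223: consequences of the integral inequality for the conformal Laplacian
-/

open MeasureTheory Filter Topology Set IsManifold
open scoped ContDiff Manifold ENNReal
open Vale.Agent.P366M Vale.Agent.P223Y
open Vale.Agent.P223W69 (RM inn Scal IsVol EE exists_unique_vol)
open Vale.Agent.P366Z (bb gam)

noncomputable section

namespace Vale.Agent.N223

variable {n : ℕ} {M : Type}

theorem lint_le [MeasurableSpace M] (μ : Measure M) {S : M → ℝ} {κ : ℝ} (hκ : 0 ≤ κ)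
    (h : ∀ p, -κ ^ 2 ≤ S p) : ∫⁻ p, ENNReal.ofReal (max 0 (-S p) ^ ((n : ℝ) / 2)) ∂μ ≤
      ENNReal.ofReal (κ ^ n) * μ univ := by
  rw [← lintegral_const]
  refine lintegral_mono fun p => ENNReal.ofReal_le_ofReal ?_
  refine (Real.rpow_le_rpow (le_max_left _ _) (max_le (sq_nonneg κ) (neg_le.1 (h p)))
    (by positivity)).trans_eq ?_
  rw [← Real.rpow_natCast, ← Real.rpow_mul hκ, ← Real.rpow_natCast]
  congr 1
  push_cast
  ring

section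

variable [Mf0 n M] [cs : ChartedSpace (EE n) M] [IsManifold (𝓡 n) ∞ M] [CompactSpace M]
  (hA : ∀ x : M, ch x ∈ maximalAtlas (𝓡 n) ∞ M)
include hA

theorem isVol_fld (g : RM (EE n) M) : IsVol g (vol (fld g)) := by
  obtain ⟨μ, h, -⟩ := exists_unique_vol g
  rwa [vol_fld hA g h]

theorem of_int (g : RM (EE n) M) :
    ENNReal.ofReal (∫ _x, (1 : ℝ) ∂vol (fld g)) = vol (fld g) univ := by
  have := (met_fld hA g).locFin
  rw [integral_const, smul_eq_mul, mul_one, ofReal_measureReal]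

variable {N : ℝ≥0∞} (Q : ∀ (g : RM (EE n) M) (μ : Measure M), IsVol g μ →
  N ≤ ∫⁻ p, ENNReal.ofReal (max 0 (-Scal g p) ^ ((n : ℝ) / 2)) ∂μ)
include Q

theorem le_vol (g : RM (EE n) M) (h : ∀ p, -1 ≤ Scal g p) : N ≤ vol (fld g) univ := by
  simpa using (Q g _ (isVol_fld hA g)).trans (lint_le _ zero_le_one (by simpa using h))

theorem exists_g [ConnectedSpace M] (hn : 3 ≤ n) (N0 : N ≠ 0) (g : RM (EE n) M) :
    ∃ g₁, Conf g g₁ ∧ ∀ p, Scal g₁ p = -1 := by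
  have hg := met_fld hA g
  have fin : N ≠ ⊤ := by
    have := hg.locFin
    obtain ⟨C, hC⟩ := isCompact_univ.exists_bound_of_continuousOn hg.sm_scal.cont.continuousOn
    refine ne_top_of_le_ne_top ?_ ((Q g _ (isVol_fld hA g)).trans
      (lint_le _ (Real.sqrt_nonneg C) fun p => ?_))
    · exact ENNReal.mul_ne_top ENNReal.ofReal_ne_top (measure_ne_top _ _)
    · have := hC p (mem_univ p)
      rw [Real.sq_sqrt ((norm_nonneg _).trans this), ← scal_fld hA]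
      exact (abs_le.1 this).1
  obtain ⟨u, su, u0, hu⟩ := exists_neg hn hg (ENNReal.toReal_pos N0 fin) fun u su u0 h => by
    obtain ⟨g', -, e⟩ := exists_conf hA g su u0
    rw [← e] at h ⊢
    refine ENNReal.toReal_le_of_le_ofReal (integral_nonneg fun _ => zero_le_one) ?_
    rw [of_int hA]
    exact le_vol hA Q g' fun p => scal_fld hA g' p ▸ h p
  obtain ⟨g', h1, e⟩ := exists_conf hA g su u0
  exact ⟨g', h1, fun p => by rw [← scal_fld hA, e, hu]⟩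

omit Q in
theorem spec (hn : 3 ≤ n) {g g₁ : RM (EE n) M} (hc : Conf g g₁) (h1 : ∀ p, Scal g₁ p = -1)
    {h : M → ℝ} (hh : Integrable h (vol (fld g))) (H : ∀ u X, Grad g u X →
      0 ≤ ∫ p, (4 * (n - 1) / (n - 2) * inn (EE n) g p (X p) (X p) + (Scal g p + h p) * u p ^ 2)
        ∂vol (fld g)) :
    vol (fld g₁) univ ≤ ∫⁻ p, ENNReal.ofReal (max 0 (h p) ^ ((n : ℝ) / 2)) ∂vol (fld g) := by
  obtain ⟨f, hf⟩ := hc
  obtain ⟨u, su, u0, -, e⟩ := conf_cf hA hn hf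
  obtain ⟨X, h2, h3⟩ := exists_grad hA g su
  rw [← of_int hA, e]
  refine spec_le hn (met_fld hA g) su u0 (fun p => by rw [← e, scal_fld hA, h1]) hh ?_
  simpa only [h3, scal_fld hA, gam, mul_div_assoc] using H u X h2

omit Q [CompactSpace M] in
theorem conf_div (hn : 3 ≤ n) {g g₁ g₂ : RM (EE n) M} (h1 : Conf g g₁) (h2 : Conf g g₂) :
    Conf g₁ g₂ := by
  obtain ⟨f₁, h1⟩ := h1
  obtain ⟨f₂, h2⟩ := h2
  obtain ⟨u, -, u0, e, -⟩ := conf_cf hA hn h1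
  refine ⟨fun p => f₂ p / f₁ p, fun p v w => ?_⟩
  have : f₁ p ≠ 0 := e p ▸ (Real.rpow_pos_of_pos (u0 p) _).ne'
  rw [h1, h2]
  field_simp

omit Q in
theorem uniq_g (hn : 3 ≤ n) {g₁ g₂ : RM (EE n) M} (hc : Conf g₁ g₂) (h1 : ∀ p, Scal g₁ p = -1)
    (h2 : ∀ p, Scal g₂ p = -1) : g₂ = g₁ := by
  obtain ⟨f, hf⟩ := hc
  obtain ⟨u, su, u0, k, e⟩ := conf_cf hA hn hf
  refine rm_ext fun p v w => ?_
  rw [hf, ← k, uniq hn (met_fld hA g₁) (fun x => by rw [scal_fld hA, h1]) su u0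
    (fun x => by rw [← e, scal_fld hA, h2]), one_mul]

omit Q in
theorem mini_g (hn : 3 ≤ n) {g₁ g : RM (EE n) M} (hc : Conf g₁ g) (h1 : ∀ p, Scal g₁ p = -1) :
    -((vol (fld g₁)).real univ ^ (2 / (n : ℝ)) * (vol (fld g)).real univ ^ (1 - 2 / (n : ℝ))) ≤
      ∫ p, Scal g p ∂vol (fld g) := by
  obtain ⟨f, hf⟩ := hc
  obtain ⟨u, su, u0, -, e⟩ := conf_cf hA hn hf
  have := mini hn (met_fld hA g₁) (fun x => by rw [scal_fld hA, h1]) su u0
  rw [← e] at this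
  simpa only [integral_const, smul_eq_mul, mul_one, scal_fld hA] using this

theorem core [ConnectedSpace M] (hn : 3 ≤ n) (g : RM (EE n) M) (μ : Measure M) (hμ : IsVol g μ) :
    (∀ h : M → ℝ, Integrable h μ → (∀ u X, Grad g u X →
      0 ≤ ∫ p, (4 * (n - 1) / (n - 2) * inn (EE n) g p (X p) (X p) + (Scal g p + h p) * u p ^ 2)
        ∂μ) → N ≤ ∫⁻ p, ENNReal.ofReal (max 0 (h p) ^ ((n : ℝ) / 2)) ∂μ) ∧
    (N ≠ 0 → ∃! g₁, Conf g g₁ ∧ ∀ p, Scal g₁ p = -1) ∧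
    ∀ (g₁ : RM (EE n) M) (μ₁ : Measure M), Conf g g₁ → (∀ p, Scal g₁ p = -1) → IsVol g₁ μ₁ →
      N ≤ μ₁ univ ∧ μ₁ univ ≤ ∫⁻ p, ENNReal.ofReal (max 0 (-Scal g p) ^ ((n : ℝ) / 2)) ∂μ ∧
      -(μ₁.real univ ^ (2 / (n : ℝ)) * μ.real univ ^ (1 - 2 / (n : ℝ))) ≤ ∫ p, Scal g p ∂μ := by
  obtain rfl := vol_fld hA g hμ
  have n3 : (3 : ℝ) ≤ n := by exact_mod_cast hn
  refine ⟨fun h hh H => ?_, fun N0 => ?_, fun g₁ μ₁ h1 h2 h3 => ?_⟩
  · rcases eq_or_ne N 0 with rfl | N0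
    · exact zero_le
    obtain ⟨g₁, h1, h2⟩ := exists_g hA Q hn N0 g
    exact (le_vol hA Q g₁ fun p => (h2 p).ge).trans (spec hA hn h1 h2 hh H)
  · obtain ⟨g₁, h1, h2⟩ := exists_g hA Q hn N0 g
    exact ⟨g₁, ⟨h1, h2⟩, fun g₂ h => uniq_g hA hn (conf_div hA hn h1 h.1) h2 h.2⟩
  obtain rfl := vol_fld hA g₁ h3
  have hg := met_fld hA g
  refine ⟨le_vol hA Q g₁ fun p => (h2 p).ge, ?_,
    mini_g hA hn (conf_div hA hn h1 ⟨fun _ => 1, fun _ _ _ => (one_mul _).symm⟩) h2⟩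
  refine spec hA hn h1 h2 (h := fun p => -Scal g p) ?_ fun u X _ => integral_nonneg fun p => ?_
  · simp only [← scal_fld hA]
    exact hg.integrable_supp hg.sm_scal.cont.neg (HasCompactSupport.of_compactSpace _)
  · have h4 : 0 ≤ inn (EE n) g p (X p) (X p) := by
      rcases eq_or_ne (X p) 0 with k | k
      · simp [k, inn]
      · exact (g.pos p _ k).le
    have h5 : (0 : ℝ) ≤ 4 * (n - 1) / (n - 2) := div_nonneg (by linarith) (by linarith)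
    simpa using mul_nonneg h5 h4

end

theorem main [TopologicalSpace M] [CompactSpace M] [T2Space M] [ConnectedSpace M]
    [cs : ChartedSpace (EE n) M] [IsManifold (𝓡 n) ∞ M] [MeasurableSpace M] [BorelSpace M]
    {N : ℝ≥0∞} (Q : ∀ (g : RM (EE n) M) (μ : Measure M), IsVol g μ →
      N ≤ ∫⁻ p, ENNReal.ofReal (max 0 (-Scal g p) ^ ((n : ℝ) / 2)) ∂μ)
    (hn : 3 ≤ n) (g : RM (EE n) M) (μ : Measure M) (hμ : IsVol g μ) :
    (∀ h : M → ℝ, Integrable h μ → (∀ u X, Grad g u X →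
      0 ≤ ∫ p, (4 * (n - 1) / (n - 2) * inn (EE n) g p (X p) (X p) + (Scal g p + h p) * u p ^ 2)
        ∂μ) → N ≤ ∫⁻ p, ENNReal.ofReal (max 0 (h p) ^ ((n : ℝ) / 2)) ∂μ) ∧
    (N ≠ 0 → ∃! g₁, Conf g g₁ ∧ ∀ p, Scal g₁ p = -1) ∧
    ∀ (g₁ : RM (EE n) M) (μ₁ : Measure M), Conf g g₁ → (∀ p, Scal g₁ p = -1) → IsVol g₁ μ₁ →
      N ≤ μ₁ univ ∧ μ₁ univ ≤ ∫⁻ p, ENNReal.ofReal (max 0 (-Scal g p) ^ ((n : ℝ) / 2)) ∂μ ∧
      -(μ₁.real univ ^ (2 / (n : ℝ)) * μ.real univ ^ (1 - 2 / (n : ℝ))) ≤ ∫ p, Scal g p ∂μ :=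
  @core n M mk0 cs _ _ (fun x => (exists_ch x).choose_spec.1) N Q _ hn g μ hμ

end Vale.Agent.N223
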