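import Vale.Agent.P223Y.Yam

/-!
# N223: a Harnack inequality and the Yamabe equation in the negative case
-/

open MeasureTheory Filter Topology Set Metric
open scoped ContDiff
open Vale.Agent.P366M Vale.Agent.P366D Vale.Agent.P223Y
open Vale.Agent.P366Z (bb gam)

noncomputable section

namespace Vale.Agent.N223

variable {n : ℕ}

theorem harnack_mfs {M : Type} [Mfs n M] [CompactSpace M] [ConnectedSpace M]
    (hb : ∀ x : M, ‖px x‖ < R0 M) (hn : 0 < n) {g : Fld n M} (hg : Met g) {B m : ℝ} (hB : 0 < B)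
    (hm : 0 < m) : ∃ c > (0 : ℝ), ∀ u : M → ℝ, Smooth u →
      (∀ x, 0 ≤ u x ∧ u x ≤ B ∧ |lap g u x| ≤ B ∧ lap g u x ≤ B * u x) → (∃ x, m ≤ u x) →
      ∀ x, c ≤ u x := by
  have hf : Flat g (R0 M + 1) := ⟨le_rfl, fun x hx => absurd (hb x) (by linarith)⟩
  have hU : Wt g fun _ => 1 := ⟨cd_const, 1, one_pos, 1, fun x => by simp [fd_const, lap_const]⟩
  obtain ⟨D, hD⟩ := hU.grad hn hg hf
  obtain ⟨C, C1, hC⟩ := bl_of_fd M
  obtain ⟨N, N1, N2⟩ : ∃ N, B ≤ N ∧ D * (B / 1 + 1 * B) ≤ N := ⟨_, le_max_left _ _, le_max_right _ _⟩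
  have L0 : 0 < C * N := mul_pos (by linarith) (by linarith)
  obtain ⟨r, hr⟩ : ∃ r, r = m / (4 * (C * N)) := ⟨_, rfl⟩
  have r0 : 0 < r := by rw [hr]; positivity
  choose c c0 hc using fun x₀ : M => chain n M g (fun _ => 1) B r univ univ x₀ hg cd_const
    (fun _ => one_pos) hB.le isOpen_univ isPreconnected_univ isCompact_univ subset_rfl r0
    (subset_univ _)
  obtain ⟨t, -, ht⟩ := isCompact_univ.elim_nhds_subcover (fun x : M => ball x r)
    fun x _ => ball_mem_nhds x r0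
  have tn : t.Nonempty := by
    obtain ⟨x⟩ : Nonempty M := inferInstance
    obtain ⟨y, hy, -⟩ := mem_iUnion₂.1 (ht (mem_univ x))
    exact ⟨y, hy⟩
  obtain ⟨y₀, -, hy₀⟩ := t.exists_min_image c tn
  refine ⟨m / 2 * c y₀, mul_pos (half_pos hm) (c0 _), fun u su hu ⟨x, hx⟩ z => ?_⟩
  have hL := hC ℝ u N fun x => ⟨su.diff x, by
    rw [Real.norm_of_nonneg (hu x).1]; exact (hu x).2.1.trans N1,
    (hD 1 B B x u one_pos le_rfl fun y _ => ⟨su.c2 y, by
      rw [abs_of_nonneg (hu y).1]; exact (hu y).2.1, by rw [wl_one]; exact (hu y).2.2.1⟩).trans N2⟩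
  obtain ⟨y, hy, hxy⟩ := mem_iUnion₂.1 (ht (mem_univ x))
  have h2 : (0 : ℝ) < 2 / m := by positivity
  have k := hc y (fun p => 2 / m * u p) (fun p _ => ⟨cAt_const.mul (su.c2 p),
    mul_nonneg h2.le (hu p).1, by
      rw [wl_one, lap_const_mul, mul_left_comm]
      exact mul_le_mul_of_nonneg_left (hu p).2.2.2 h2.le⟩) (fun p hp => by
    have h3 := hL.2 x p
    have h4 : dist x p ≤ 2 * r := by
      have := dist_triangle_right x p y
      linarith [mem_ball.1 hxy, mem_ball.1 hp]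
    have h5 : C * N * (2 * r) = m / 2 := by
      rw [hr]
      generalize C * N = L at L0
      field_simp
      ring
    have h6 := (le_abs_self _).trans (h3.trans (mul_le_mul_of_nonneg_left h4 L0.le))
    rw [div_mul_eq_mul_div, le_div_iff₀ hm]
    linarith) z (mem_univ z)
  rw [div_mul_eq_mul_div, le_div_iff₀ hm] at k
  nlinarith [hy₀ y hy]

variable {M : Type} [Mf0 n M] {g : Fld n M}

/-- **Harnack**: bounded nonnegative supersolutions with bounded Laplacian -/
theorem harnack [CompactSpace M] [ConnectedSpace M] (hn : 0 < n) (hg : Met g) {B m : ℝ}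
    (hB : 0 < B) (hm : 0 < m) : ∃ c > (0 : ℝ), ∀ u : M → ℝ, Smooth u →
      (∀ x, 0 ≤ u x ∧ u x ≤ B ∧ |lap g u x| ≤ B ∧ lap g u x ≤ B * u x) → (∃ x, m ≤ u x) →
      ∀ x, c ≤ u x := by
  obtain ⟨X, _, ψ, h1, h2, h3⟩ := exists_mfs_cpt M
  have := ψ.compactSpace
  have : ConnectedSpace X := ψ.surjective.connectedSpace ψ.continuous
  have hg' : Met (pull ψ.symm g) := hg.pull h3 fun x => inj_of_left (B := jm ψ (ψ.symm x)) (by
    rw [← jm_comp (h2 _) (h3 x)]
    simpa only [ψ.apply_symm_apply] using jm_id x)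
  have iso : ∀ x, IsoM ψ.symm g (pull ψ.symm g) x := fun x => ⟨.of_forall h3, hg, hg', .rfl⟩
  obtain ⟨c, c0, hc⟩ := harnack_mfs h1 hn hg' hB hm
  refine ⟨c, c0, fun u su hu ⟨x, hx⟩ z => ?_⟩
  have := hc (fun p => u (ψ.symm p)) (smooth_comp h3 su) (fun p => by
    rw [(iso p).lap (su.c2 _) .rfl]; exact hu _) ⟨ψ x, by simpa using hx⟩ (ψ z)
  simpa using this

theorem bb_pos (hn : 3 ≤ n) : 0 < bb n := by
  have n3 : (3 : ℝ) ≤ n := by exact_mod_cast hn
  unfold bb; exact div_pos two_pos (by linarith)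

theorem gam_pos (hn : 3 ≤ n) : 0 < 4 * gam n := by
  have n3 : (3 : ℝ) ≤ n := by exact_mod_cast hn
  unfold gam; exact mul_pos four_pos (div_pos (by linarith) (by linarith))

theorem nbb (hn : 3 ≤ n) : n * bb n = 2 * bb n + 2 := by
  have n3 : (3 : ℝ) ≤ n := by exact_mod_cast hn
  have : (n : ℝ) - 2 ≠ 0 := by linarith
  unfold bb
  field_simp
  ring

/-- the equation `L u = δ - u ^ p` between a positive subsolution and a constant -/
theorem solve [CompactSpace M] (hn : 3 ≤ n) (hg : Met g) {δ B : ℝ} {u₁ : M → ℝ} (s1 : Smooth u₁)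
    (h0 : ∀ x, 0 < u₁ x) (le : ∀ x, u₁ x ≤ B)
    (e1 : ∀ x, cl g u₁ x ≤ δ - u₁ x ^ (2 * bb n) * u₁ x)
    (e2 : ∀ x, δ - B ^ (2 * bb n) * B ≤ scal g x * B) :
    ∃ u, Smooth u ∧ ∀ x, (u₁ x ≤ u x ∧ u x ≤ B) ∧ cl g u x = δ - u x ^ (2 * bb n) * u x := by
  have ha := gam_pos hn
  obtain ⟨x₁, -, m1⟩ := isCompact_univ.exists_isMinOn univ_nonempty s1.cont.continuousOn
  have m1' : ∀ x, u₁ x₁ ≤ u₁ x := fun x => m1 (mem_univ x)
  obtain ⟨ψ, t1, t2, t3⟩ := exists_pos _ (h0 x₁)
  obtain ⟨u, su, hu⟩ := P223R.semi (by omega) hg hg.sm_scal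
    (φ := fun q => ((ψ q.2 ^ (2 * bb n) + q.1) * q.2 - δ) / (4 * gam n))
    (fun x t => (((((t1.contDiffAt.comp _ contDiffAt_snd).rpow_const_of_ne (t2 _).ne').add
      contDiffAt_fst).mul contDiffAt_snd).sub contDiffAt_const).div_const _)
    (u₂ := fun _ => B) s1 cd_const le (fun x => by
      have := e1 x
      rw [cl] at this
      rw [t3 _ (m1' x), div_le_iff₀ ha]
      linarith)
    fun x => by
      rw [lap_const, t3 _ ((m1' x).trans (le x))]
      exact div_nonneg (by linarith [e2 x]) ha.le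
  refine ⟨u, su, fun x => ⟨(hu x).1, ?_⟩⟩
  have := (hu x).2
  rw [t3 _ ((m1' x).trans (hu x).1.1), eq_div_iff ha.ne'] at this
  rw [cl]
  linarith

theorem scal_of_cl (hn : 3 ≤ n) (hg : Met g) {u : M → ℝ} (su : Smooth u) (u0 : ∀ x, 0 < u x)
    (x : M) : scal (cf u g) x * (u x ^ (2 * bb n) * u x) = cl g u x := by
  have k : u x ^ (-(2 * bb n) - 1) * (u x ^ (2 * bb n) * u x) = 1 := by
    rw [← Real.rpow_add_one (u0 x).ne', ← Real.rpow_add (u0 x)]
    simp
  rw [hg.scal_cf hn su u0, mul_right_comm, k, one_mul]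

/-- **the Yamabe problem** for a conformal class all of whose metrics with `Scal ≥ -1` have volume
at least `v > 0` -/
theorem exists_neg [CompactSpace M] [ConnectedSpace M] (hn : 3 ≤ n) (hg : Met g) {v : ℝ}
    (hv : 0 < v) (H : ∀ u, Smooth u → (∀ x, 0 < u x) → (∀ x, -1 ≤ scal (cf u g) x) →
      v ≤ ∫ _x, (1 : ℝ) ∂vol (cf u g)) :
    ∃ u, Smooth u ∧ (∀ x, 0 < u x) ∧ ∀ x, scal (cf u g) x = -1 := by
  have hb := bb_pos hn
  have ha := gam_pos hn
  have b0 : 0 < 2 * bb n := by positivity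
  have n0 : 0 < n * bb n := by rw [nbb hn]; positivity
  have I : ∀ {f : M → ℝ}, Continuous f → Integrable f (vol g) := fun hf =>
    hg.integrable_supp hf (HasCompactSupport.of_compactSpace _)
  obtain ⟨C, C0, hC⟩ : ∃ C, 0 ≤ C ∧ ∀ x, |scal g x| ≤ C := by
    obtain ⟨A, hA⟩ := isCompact_univ.exists_bound_of_continuousOn hg.sm_scal.cont.continuousOn
    exact ⟨max A 0, le_max_right _ _, fun x => (hA x (mem_univ x)).trans (le_max_left _ _)⟩
  obtain ⟨B, B1, hB⟩ : ∃ B, 1 ≤ B ∧ B ^ (2 * bb n) = C + 1 :=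
    ⟨(C + 1) ^ (2 * bb n)⁻¹, Real.one_le_rpow (by linarith) (by positivity),
      Real.rpow_inv_rpow (by linarith) b0.ne'⟩
  have sup : ∀ δ ≤ (1 : ℝ), ∀ x, δ - B ^ (2 * bb n) * B ≤ scal g x * B := fun δ hδ x => by
    rw [hB]
    nlinarith [(abs_le.1 (hC x)).1]
  -- the approximate solutions
  have ex : ∀ δ : ℝ, 0 < δ → δ ≤ 1 → ∃ u, Smooth u ∧ ∀ x, (0 < u x ∧ u x ≤ B) ∧
      cl g u x = δ - u x ^ (2 * bb n) * u x := fun δ d0 d1 => by
    have m0 : 0 < δ / (C + 1) := by positivity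
    have m1 : δ / (C + 1) ≤ 1 := (div_le_one (by linarith)).2 (by linarith)
    obtain ⟨u, su, hu⟩ := solve hn hg (δ := δ) (B := B) (u₁ := fun _ => δ / (C + 1)) cd_const
      (fun _ => m0) (fun _ => m1.trans B1) (fun x => by
        rw [cl, lap_const]
        have h1 := Real.rpow_le_one m0.le m1 b0.le
        have h2 : δ / (C + 1) * (C + 1) = δ := div_mul_cancel₀ _ (by linarith)
        nlinarith [(abs_le.1 (hC x)).2]) (sup δ d1)
    exact ⟨u, su, fun x => ⟨⟨m0.trans_le (hu x).1.1, (hu x).1.2⟩, (hu x).2⟩⟩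
  set V := ∫ _x, (1 : ℝ) ∂vol g with hV
  have V0 : 0 ≤ V := integral_nonneg fun _ => zero_le_one
  obtain ⟨m, m0, hm⟩ : ∃ m, 0 < m ∧ m ^ (n * bb n) = v / (V + 1) :=
    ⟨(v / (V + 1)) ^ (n * bb n)⁻¹, by positivity, Real.rpow_inv_rpow (by positivity) n0.ne'⟩
  obtain ⟨B', B'1, B'2⟩ : ∃ B', B ≤ B' ∧ ((2 * C + 1) * B + 1) / (4 * gam n) ≤ B' :=
    ⟨_, le_max_left _ _, le_max_right _ _⟩
  obtain ⟨c, c0, hc⟩ := harnack (by omega) hg (B := B') (by linarith) m0
  obtain ⟨κ, hκ⟩ : ∃ κ, κ = c ^ (2 * bb n) * c / 2 := ⟨_, rfl⟩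
  have κ0 : 0 < κ := by rw [hκ]; positivity
  obtain ⟨u, su, hu⟩ := ex (min 1 κ) (lt_min one_pos κ0) (min_le_left _ _)
  have u0 : ∀ x, 0 < u x := fun x => (hu x).1.1
  have up : ∀ x, 0 < u x ^ (2 * bb n) ∧ u x ^ (2 * bb n) ≤ C + 1 := fun x =>
    ⟨Real.rpow_pos_of_pos (u0 x) _, hB ▸ Real.rpow_le_rpow (u0 x).le (hu x).1.2 b0.le⟩
  have d0 : 0 < min 1 κ := lt_min one_pos κ0
  have low := hc u su (fun x => by
    have e := (hu x).2
    rw [cl] at e
    rw [div_le_iff₀ ha] at B'2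
    have h1 := abs_le.1 (hC x)
    have h2 := up x
    have h3 := (hu x).1
    have h4 := min_le_left 1 κ
    have h5 : scal g x * u x ≤ C * u x := mul_le_mul_of_nonneg_right h1.2 h3.1.le
    have h6 : -C * u x ≤ scal g x * u x := mul_le_mul_of_nonneg_right h1.1 h3.1.le
    have h7 : u x ^ (2 * bb n) * u x ≤ (C + 1) * u x := mul_le_mul_of_nonneg_right h2.2 h3.1.le
    have h8 := mul_pos h2.1 h3.1
    have h9 : C * u x ≤ C * B := mul_le_mul_of_nonneg_left h3.2 C0
    refine ⟨h3.1.le, h3.2.trans B'1, abs_le.2 ⟨?_, ?_⟩, ?_⟩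
    · refine le_of_mul_le_mul_left ?_ ha
      nlinarith
    · refine le_of_mul_le_mul_left ?_ ha
      nlinarith
    · refine le_of_mul_le_mul_left ?_ ha
      have h10 : (2 * C + 1) * u x ≤ B' * (4 * gam n) * u x :=
        mul_le_mul_of_nonneg_right (by nlinarith) h3.1.le
      nlinarith) (by
    by_contra hcon
    push Not at hcon
    have h1 := H u su u0 fun x => by
      have h2 := scal_of_cl hn hg su u0 x
      rw [(hu x).2] at h2
      have h3 := mul_pos (up x).1 (u0 x)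
      refine le_of_mul_le_mul_right ?_ h3
      linarith
    rw [integral_cf hg su u0] at h1
    have h2 : ∫ x, 1 * u x ^ (n * bb n) ∂vol g ≤ ∫ _x, v / (V + 1) * 1 ∂vol g :=
      integral_mono (I (continuous_const.mul (su.rpow u0 _).cont)) (I continuous_const) fun x => by
        beta_reduce
        rw [one_mul, mul_one, ← hm]
        exact Real.rpow_le_rpow (u0 x).le (hcon x).le n0.le
    rw [integral_const_mul (v / (V + 1)), ← hV, div_mul_eq_mul_div] at h2
    have h3 := (le_div_iff₀ (by positivity)).1 (h1.trans h2)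
    nlinarith)
  have neg : ∀ x, cl g u x ≤ -κ := fun x => by
    have h1 : c ^ (2 * bb n) * c ≤ u x ^ (2 * bb n) * u x :=
      mul_le_mul (Real.rpow_le_rpow c0.le (low x) b0.le) (low x) c0.le (up x).1.le
    rw [(hu x).2]
    linarith [min_le_right 1 κ]
  -- a small multiple is a subsolution
  obtain ⟨t, t0, t1, ht⟩ : ∃ t, 0 < t ∧ t ≤ 1 ∧ t ^ (2 * bb n) * ((C + 1) * B) ≤ κ := by
    have p0 : 0 < κ / ((C + 1) * B) := by positivity
    refine ⟨min 1 ((κ / ((C + 1) * B)) ^ (2 * bb n)⁻¹), lt_min one_pos (by positivity),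
      min_le_left _ _, ?_⟩
    rw [← le_div_iff₀ (by positivity)]
    refine (Real.rpow_le_rpow (by positivity) (min_le_right _ _) b0.le).trans_eq ?_
    exact Real.rpow_inv_rpow p0.le b0.ne'
  obtain ⟨w, sw, hw⟩ := solve hn hg (δ := 0) (B := B) (u₁ := fun x => t * u x) (cd_const.mul su)
    (fun x => mul_pos t0 (u0 x)) (fun x => by nlinarith [(hu x).1, u0 x]) (fun x => by
      have h1 : cl g (fun x => t * u x) x = t * cl g u x := by
        rw [cl, cl, lap_const_mul]; ring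
      rw [h1, Real.mul_rpow t0.le (u0 x).le]
      have h2 : u x ^ (2 * bb n) * u x ≤ (C + 1) * B :=
        mul_le_mul (up x).2 (hu x).1.2 (u0 x).le (by linarith)
      have h3 := mul_le_mul_of_nonneg_left h2 (Real.rpow_pos_of_pos t0 (2 * bb n)).le
      have h4 := mul_le_mul_of_nonneg_left ((h3.trans ht).trans (le_neg.1 (neg x))) t0.le
      linarith) (sup 0 zero_le_one)
  have w0 : ∀ x, 0 < w x := fun x => (mul_pos t0 (u0 x)).trans_le (hw x).1.1
  refine ⟨w, sw, w0, fun x => ?_⟩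
  have h2 := scal_of_cl hn hg sw w0 x
  rw [(hw x).2] at h2
  refine mul_right_cancel₀ (mul_pos (Real.rpow_pos_of_pos (w0 x) (2 * bb n)) (w0 x)).ne' ?_
  linarith

/-- uniqueness -/
theorem uniq [CompactSpace M] (hn : 3 ≤ n) (hg : Met g) (h : ∀ x, scal g x = -1) {f : M → ℝ}
    (sf : Smooth f) (f0 : ∀ x, 0 < f x) (h' : ∀ x, scal (cf f g) x = -1) (x : M) :
    f x ^ (2 * bb n) = 1 := by
  have ha := gam_pos hn
  have b0 : 0 < 2 * bb n := by have := bb_pos hn; positivity
  have e : ∀ y, 4 * gam n * lap g f y = (f y ^ (2 * bb n) - 1) * f y := fun y => by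
    have := scal_of_cl hn hg sf f0 y
    rw [h', cl, h] at this
    linarith
  obtain ⟨x₁, -, m1⟩ := isCompact_univ.exists_isMinOn univ_nonempty sf.cont.continuousOn
  obtain ⟨x₂, -, m2⟩ := isCompact_univ.exists_isMaxOn univ_nonempty sf.cont.continuousOn
  have a1 := mul_nonneg ha.le (hg.lap_nonneg (sf.c2 x₁) (m1.isLocalMin univ_mem))
  have a2 := mul_nonpos_of_nonneg_of_nonpos ha.le (hg.lap_nonpos (sf.c2 x₂) (m2.isLocalMax univ_mem))
  rw [e] at a1 a2
  have a3 := nonneg_of_mul_nonneg_left a1 (f0 _)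
  have a4 := nonpos_of_mul_nonpos_left a2 (f0 _)
  have a5 := Real.rpow_le_rpow (f0 _).le (m1 (mem_univ x)) b0.le
  have a6 := Real.rpow_le_rpow (f0 _).le (m2 (mem_univ x)) b0.le
  linarith

/-- the total scalar curvature of a conformal metric -/
theorem total [CompactSpace M] (hn : 3 ≤ n) (hg : Met g) {u : M → ℝ} (su : Smooth u)
    (u0 : ∀ x, 0 < u x) : ∫ x, scal (cf u g) x ∂vol (cf u g) =
      ∫ x, (4 * gam n * ip g u u x + scal g x * u x ^ 2) ∂vol g := by
  have I : ∀ {f : M → ℝ}, Continuous f → Integrable f (vol g) := fun hf =>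
    hg.integrable_supp hf (HasCompactSupport.of_compactSpace _)
  have i1 := hg.ibp_lap' su.one.llip (HasCompactSupport.of_compactSpace _) su.two
  have c2 : Continuous fun x => scal g x * u x ^ 2 := hg.sm_scal.cont.mul (su.cont.pow 2)
  have c1 : Continuous fun x => u x * lap g u x := su.cont.mul (hg.sm_lap su).cont
  have e : ∀ x, scal (cf u g) x * u x ^ (n * bb n) =
      -(4 * gam n) * (u x * lap g u x) + scal g x * u x ^ 2 := fun x => by
    have h1 := scal_of_cl hn hg su u0 x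
    have h2 : u x ^ (n * bb n) = u x ^ (2 * bb n) * u x * u x := by
      rw [← Real.rpow_add_one (u0 x).ne', ← Real.rpow_add_one (u0 x).ne', nbb hn]
      congr 1
      ring
    rw [h2, ← mul_assoc, h1, cl]
    ring
  rw [integral_cf hg su u0]
  simp only [e]
  rw [integral_add ((I c1).const_mul _) (I c2),
    integral_add ((I (hg.sm_ip su su).cont).const_mul _) (I c2), integral_const_mul,
    integral_const_mul, i1]
  ring

theorem holder_pq (hn : 3 ≤ n) : ((n : ℝ) / 2).HolderConjugate (n / (n - 2)) := by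
  have n3 : (3 : ℝ) ≤ n := by exact_mod_cast hn
  rw [Real.holderConjugate_iff]
  refine ⟨by linarith, ?_⟩
  have : (n : ℝ) - 2 ≠ 0 := by linarith
  field_simp
  ring

theorem sq_rpow (hn : 3 ≤ n) {t : ℝ} (ht : 0 ≤ t) :
    (t ^ 2) ^ ((n : ℝ) / (n - 2)) = t ^ (n * bb n) := by
  rw [← Real.rpow_natCast, ← Real.rpow_mul ht, bb]
  congr 1
  push_cast
  ring

/-- the spectral bound, tested on the solution of the Yamabe equation -/
theorem spec_le [CompactSpace M] (hn : 3 ≤ n) (hg : Met g) {u : M → ℝ} (su : Smooth u)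
    (u0 : ∀ x, 0 < u x) (hu : ∀ x, scal (cf u g) x = -1) {h : M → ℝ} (hh : Integrable h (vol g))
    (H : 0 ≤ ∫ x, (4 * gam n * ip g u u x + (scal g x + h x) * u x ^ 2) ∂vol g) :
    ENNReal.ofReal (∫ _x, (1 : ℝ) ∂vol (cf u g)) ≤
      ∫⁻ x, ENNReal.ofReal (max 0 (h x) ^ ((n : ℝ) / 2)) ∂vol g := by
  have n3 : (3 : ℝ) ≤ n := by exact_mod_cast hn
  have I : ∀ {f : M → ℝ}, Continuous f → Integrable f (vol g) := fun hf =>
    hg.integrable_supp hf (HasCompactSupport.of_compactSpace _)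
  have nn : ∀ x, 0 ≤ max 0 (h x) ^ ((n : ℝ) / 2) := fun x => Real.rpow_nonneg (le_max_left _ _) _
  by_cases hi : Integrable (fun x => max 0 (h x) ^ ((n : ℝ) / 2)) (vol g)
  swap
  · have hm : AEStronglyMeasurable (fun x => max 0 (h x) ^ ((n : ℝ) / 2)) (vol g) :=
      ((continuous_const.max continuous_id).rpow_const fun _ => Or.inr (by positivity) :
        Continuous fun t : ℝ => max 0 t ^ ((n : ℝ) / 2)).comp_aestronglyMeasurable hh.1
    have := mt (lintegral_ofReal_ne_top_iff_integrable hm (.of_forall nn)).1 hi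
    rw [not_not.1 this]
    exact le_top
  rw [← ofReal_integral_eq_lintegral_ofReal hi (.of_forall nn)]
  refine ENNReal.ofReal_le_ofReal ?_
  have t := total hn hg su u0
  simp only [hu] at t
  rw [integral_neg] at t
  have c1 : Continuous fun x => 4 * gam n * ip g u u x + scal g x * u x ^ 2 :=
    (continuous_const.mul (hg.sm_ip su su).cont).add (hg.sm_scal.cont.mul (su.cont.pow 2))
  obtain ⟨A, hA⟩ := isCompact_univ.exists_bound_of_continuousOn (su.cont.pow 2).continuousOn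
  have i2 : Integrable (fun x => h x * u x ^ 2) (vol g) :=
    hh.mul_bdd (su.cont.pow 2).aestronglyMeasurable (.of_forall fun x => hA x (mem_univ x))
  have e : (fun x => 4 * gam n * ip g u u x + (scal g x + h x) * u x ^ 2) =
      fun x => (4 * gam n * ip g u u x + scal g x * u x ^ 2) + h x * u x ^ 2 := by
    funext x; ring
  rw [e, integral_add (I c1) i2, ← t] at H
  rw [integral_cf hg su u0] at H ⊢
  simp only [one_mul] at H ⊢
  have cN : Continuous fun x => u x ^ (n * bb n) := (su.rpow u0 _).cont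
  have i3 : ∀ x, h x * u x ^ 2 ≤
      2 / n * max 0 (h x) ^ ((n : ℝ) / 2) + (1 - 2 / n) * u x ^ (n * bb n) := fun x => by
    have y := Real.young_inequality_of_nonneg (le_max_left 0 (h x)) (sq_nonneg (u x)) (holder_pq hn)
    have k3 : u x ^ (n * bb n) / (n / (n - 2)) = (1 - 2 / n) * u x ^ (n * bb n) := by
      have : (n : ℝ) - 2 ≠ 0 := by linarith
      field_simp
    have k4 : max 0 (h x) ^ ((n : ℝ) / 2) / (n / 2) = 2 / n * max 0 (h x) ^ ((n : ℝ) / 2) := by
      field_simp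
    rw [sq_rpow hn (u0 x).le, k3, k4] at y
    exact (mul_le_mul_of_nonneg_right (le_max_right _ _) (sq_nonneg _)).trans y
  have i4 := integral_mono i2 ((hi.const_mul _).add ((I cN).const_mul _)) i3
  simp only [Pi.add_apply] at i4
  rw [integral_add (hi.const_mul _) ((I cN).const_mul _), integral_const_mul,
    integral_const_mul] at i4
  refine le_of_mul_le_mul_left ?_ (show (0 : ℝ) < 2 / n by positivity)
  linarith

/-- metrics of scalar curvature `-1` minimise the Yamabe functional -/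
theorem mini [CompactSpace M] (hn : 3 ≤ n) (hg : Met g) (h : ∀ x, scal g x = -1) {f : M → ℝ}
    (sf : Smooth f) (f0 : ∀ x, 0 < f x) :
    -((∫ _x, (1 : ℝ) ∂vol g) ^ (2 / (n : ℝ)) * (∫ _x, (1 : ℝ) ∂vol (cf f g)) ^ (1 - 2 / (n : ℝ))) ≤
      ∫ x, scal (cf f g) x ∂vol (cf f g) := by
  have n3 : (3 : ℝ) ≤ n := by exact_mod_cast hn
  have := hg.locFin
  have I : ∀ {f : M → ℝ}, Continuous f → Integrable f (vol g) := fun hf =>
    hg.integrable_supp hf (HasCompactSupport.of_compactSpace _)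
  have c2 : Continuous fun x => f x ^ 2 := sf.cont.pow 2
  have k := integral_mul_le_Lp_mul_Lq_of_nonneg (μ := vol g) (holder_pq hn) (f := fun _ => (1 : ℝ))
    (g := fun x => f x ^ 2) (.of_forall fun _ => zero_le_one) (.of_forall fun _ => sq_nonneg _)
    (continuous_const.memLp_of_hasCompactSupport (HasCompactSupport.of_compactSpace _))
    (c2.memLp_of_hasCompactSupport (HasCompactSupport.of_compactSpace _))
  simp only [Real.one_rpow, one_mul, sq_rpow hn (f0 _).le] at k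
  have e1 : 1 / ((n : ℝ) / 2) = 2 / n := by field_simp
  have e2 : 1 / ((n : ℝ) / (n - 2)) = 1 - 2 / n := by field_simp
  rw [e1, e2] at k
  rw [total hn hg sf f0, integral_cf hg sf f0]
  simp only [one_mul, h]
  refine (neg_le_neg k).trans ?_
  rw [← integral_neg]
  refine integral_mono (I c2).neg (I ((continuous_const.mul (hg.sm_ip sf sf).cont).add
    (continuous_const.mul c2))) fun x => ?_
  have := mul_nonneg (gam_pos hn).le (hg.ip_nonneg f x)
  beta_reduce
  linarith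

end Vale.Agent.N223
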